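import Vale.Agent.Lib.P048.Ports

/-!
The sharper port count: a cherry centre joins the independent set.
-/

namespace Vale.Agent.Lib.P048

open scoped Classical

variable {V : Type*} (G : SimpleGraph V)

/-- One extension step, or a bound on the number of ports. -/
theorem step2 [Fintype V] {k a D : ℕ} (hδ : ∀ v, k ≤ (Finset.univ.filter (G.Adj v)).card + 1)
    (hα : ∀ S : Finset V, (∀ x ∈ S, ∀ y ∈ S, ¬ G.Adj x y) → S.card ≤ a)
    (E : Finset V) {Z : List V} (hnd : Z.Nodup) (hZ : Cyc G.Adj Z) (hEZ : ∀ e ∈ E, e ∈ Z)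
    (hdeg : ∀ e ∈ E, D ≤ dg G.Adj e Z) (hD : Z.length + 2 ≤ 2 * D) (hlen : Z.length + 2 ≤ k) :
    E.card ≤ a + 1 ∨
      ∃ u w Z', u ∉ Z ∧ w ∉ Z ∧ u ≠ w ∧ List.Perm Z' (Z ++ [u, w]) ∧ Cyc G.Adj Z' := by
  by_cases hext : ∃ u w Z', u ∉ Z ∧ w ∉ Z ∧ u ≠ w ∧ List.Perm Z' (Z ++ [u, w]) ∧ Cyc G.Adj Z'
  · exact Or.inr hext
  left
  have noext : ∀ u w Z', u ∉ Z → w ∉ Z → u ≠ w → List.Perm Z' (Z ++ [u, w]) → ¬ Cyc G.Adj Z' :=
    fun u w Z' h1 h2 h3 h4 h5 => hext ⟨u, w, Z', h1, h2, h3, h4, h5⟩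
  have hf : ∀ e ∈ E, ∃ f, IsPred G.Adj Z f e := fun e he => IsPred.exists hZ (hEZ e he)
  choose! f hf using hf
  let A : V → Finset V := fun e => Finset.univ.filter (fun r => G.Adj (f e) r ∧ r ∉ Z)
  have hAmem : ∀ e r, r ∈ A e ↔ G.Adj (f e) r ∧ r ∉ Z := by
    intro e r
    simp [A]
  have hA2 : ∀ e ∈ E, 2 ≤ (A e).card := by
    intro e he
    have h1 := hδ (f e)
    have hfZ : f e ∈ Z := (hf e he).mem
    have hsub : Finset.univ.filter (G.Adj (f e)) ⊆ A e ∪ (Z.toFinset.erase (f e)) := by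
      intro r hr
      rw [Finset.mem_filter] at hr
      rw [Finset.mem_union, hAmem, Finset.mem_erase, List.mem_toFinset]
      by_cases hrZ : r ∈ Z
      · exact Or.inr ⟨(G.ne_of_adj hr.2).symm, hrZ⟩
      · exact Or.inl ⟨hr.2, hrZ⟩
    have h2 := Finset.card_le_card hsub
    have h3 := Finset.card_union_le (A e) (Z.toFinset.erase (f e))
    rw [Finset.card_erase_of_mem (List.mem_toFinset.2 hfZ), List.toFinset_card_of_nodup hnd] at h3
    have h4 : 0 < Z.length := List.length_pos_of_mem hfZ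
    omega
  have hP1 : ∀ e ∈ E, ∀ e' ∈ E, e ≠ e' → ∀ r ∈ A e, ∀ r' ∈ A e', r ≠ r' → ¬ G.Adj r r' := by
    intro e he e' he' hne r hr r' hr' hrr h3
    rw [hAmem] at hr hr'
    have hd1 := hdeg e he
    have hd2 := hdeg e' he'
    obtain ⟨Z', h4, h5⟩ := ext_one G hnd (hf e he) (hf e' he') hne hr.2 hr'.2 hrr hr.1 hr'.1 h3
      (by omega)
    exact noext r' r Z' hr'.2 hr.2 (Ne.symm hrr) h4 h5
  have hP2 : ∀ x ∈ E, ∀ x' ∈ E, ∀ y ∈ E, ∀ y' ∈ E, x ≠ x' → x ≠ y → x ≠ y' → x' ≠ y → x' ≠ y' →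
      y ≠ y' → ∀ u w, u ∈ A x → u ∈ A x' → w ∈ A y → w ∈ A y' → u ≠ w → False := by
    intro x hx x' hx' y hy y' hy' n1 n2 n3 n4 n5 n6 u w h1 h2 h3 h4 huw
    rw [hAmem] at h1 h2 h3 h4
    obtain ⟨Z', h5, h6⟩ := ext_two G hnd (hf x hx) (hf x' hx') (hf y hy) (hf y' hy')
      n1 n2 n3 n4 n5 n6 h1.1 h2.1 h3.1 h4.1 h1.2 h3.2 huw (hdeg x hx) (hdeg x' hx')
      (hdeg y hy) (hdeg y' hy') hD
    exact noext u w Z' h1.2 h3.2 huw h5 h6
  have hfin : ∀ X : Finset V, X ⊆ E → ∀ rep : V → V, (∀ y ∈ X, rep y ∈ A y) →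
      Set.InjOn rep (X : Set V) → X.card ≤ a := by
    intro X hX rep hrep hinj
    have h1 := hα (X.image rep) (by
      intro p hp q hq
      obtain ⟨y, hy, rfl⟩ := Finset.mem_image.1 hp
      obtain ⟨y', hy', rfl⟩ := Finset.mem_image.1 hq
      by_cases hyy : y = y'
      · subst hyy
        exact G.irrefl
      · exact hP1 y (hX hy) y' (hX hy') hyy _ (hrep y hy) _ (hrep y' hy')
          (fun h => hyy (hinj hy hy' h)))
    rwa [Finset.card_image_of_injOn hinj] at h1
  by_cases hcherry : ∃ x ∈ E, ∃ x' ∈ E, x ≠ x' ∧ ∃ u, u ∈ A x ∧ u ∈ A x'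
  · obtain ⟨x, hx, x', hx', n1, u, hu1, hu2⟩ := hcherry
    have hrepex : ∀ y ∈ E, ∃ r ∈ A y, r ≠ u := fun y hy =>
      Finset.exists_mem_ne (by have := hA2 y hy; omega) u
    choose! rep hrep1 hrep2 using hrepex
    let X := (E.erase x).erase x'
    have hXE : X ⊆ E := fun z hz => Finset.mem_of_mem_erase (Finset.mem_of_mem_erase hz)
    have hrepinj : Set.InjOn rep (X : Set V) := by
      intro y hy y' hy' heq
      by_contra hne
      have hy1 : y ≠ x' := (Finset.mem_erase.1 hy).1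
      have hy2 : y ≠ x := (Finset.mem_erase.1 (Finset.mem_erase.1 hy).2).1
      have hy1' : y' ≠ x' := (Finset.mem_erase.1 hy').1
      have hy2' : y' ≠ x := (Finset.mem_erase.1 (Finset.mem_erase.1 hy').2).1
      exact hP2 x hx x' hx' y (hXE hy) y' (hXE hy') n1 (Ne.symm hy2) (Ne.symm hy2')
        (Ne.symm hy1) (Ne.symm hy1') hne u (rep y) hu1 hu2 (hrep1 y (hXE hy))
        (heq ▸ hrep1 y' (hXE hy')) (Ne.symm (hrep2 y (hXE hy)))
    have hunot : u ∉ X.image rep := by
      intro hin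
      obtain ⟨y, hy, hyu⟩ := Finset.mem_image.1 hin
      exact hrep2 y (hXE hy) hyu
    have hux : ∀ y ∈ X, ¬ G.Adj u (rep y) := by
      intro y hy
      have hy2 : y ≠ x := (Finset.mem_erase.1 (Finset.mem_erase.1 hy).2).1
      exact hP1 x hx y (hXE hy) (Ne.symm hy2) u hu1 (rep y) (hrep1 y (hXE hy))
        (Ne.symm (hrep2 y (hXE hy)))
    have h1 : X.card + 1 ≤ a := by
      have h0 := hα (insert u (X.image rep)) (by
        intro p hp q hq
        rcases Finset.mem_insert.1 hp with rfl | hp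
        · rcases Finset.mem_insert.1 hq with rfl | hq
          · exact G.irrefl
          · obtain ⟨y, hy, rfl⟩ := Finset.mem_image.1 hq
            exact hux y hy
        · obtain ⟨y, hy, rfl⟩ := Finset.mem_image.1 hp
          rcases Finset.mem_insert.1 hq with rfl | hq
          · exact fun hadj => hux y hy hadj.symm
          · obtain ⟨y', hy', rfl⟩ := Finset.mem_image.1 hq
            by_cases hyy : y = y'
            · subst hyy
              exact G.irrefl
            · exact hP1 y (hXE hy) y' (hXE hy') hyy _ (hrep1 y (hXE hy)) _ (hrep1 y' (hXE hy'))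
                (fun h => hyy (hrepinj hy hy' h)))
      rwa [Finset.card_insert_of_notMem hunot, Finset.card_image_of_injOn hrepinj] at h0
    have h2 : E.card ≤ X.card + 2 := by
      have h3 := Finset.pred_card_le_card_erase (s := E) (a := x)
      have h4 := Finset.pred_card_le_card_erase (s := E.erase x) (a := x')
      simp only [X]
      omega
    omega
  · have hrepex : ∀ y ∈ E, ∃ r, r ∈ A y := fun y hy =>
      Finset.card_pos.1 (by have := hA2 y hy; omega)
    choose! rep hrep1 using hrepex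
    have h1 : E.card ≤ a := hfin E (Finset.Subset.refl _) rep hrep1 (by
      intro y hy y' hy' heq
      by_contra hne
      exact hcherry ⟨y, hy, y', hy', hne, rep y, hrep1 y hy, heq ▸ hrep1 y' hy'⟩)
    omega

/-- Lemma H: a closed chain through many high degree members, of the right parity and length at
most `k`, bounds the number of these members, when there is no closed chain of length `k`. -/
theorem lemma_H2 [Fintype V] {k a D : ℕ} (hδ : ∀ v, k ≤ (Finset.univ.filter (G.Adj v)).card + 1)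
    (hα : ∀ S : Finset V, (∀ x ∈ S, ∀ y ∈ S, ¬ G.Adj x y) → S.card ≤ a)
    (noC : ∀ l : List V, l.Nodup → Cyc G.Adj l → l.length ≠ k)
    (E : Finset V) (W : List V) (hEW : ∀ e ∈ E, e ∈ W) (hdeg : ∀ e ∈ E, D ≤ dg G.Adj e W)
    (hD : k ≤ 2 * D) :
    ∀ (n : ℕ) (Z : List V), k - Z.length ≤ n → Z.Nodup → Cyc G.Adj Z → W ⊆ Z → Z.length ≤ k →
      Z.length % 2 = k % 2 → E.card ≤ a + 1 := by
  intro n
  induction n with
  | zero =>
    intro Z h0 hnd hZ hWZ hlen hpar
    exact absurd (by omega) (noC Z hnd hZ)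
  | succ n ih =>
    intro Z h0 hnd hZ hWZ hlen hpar
    have hne := noC Z hnd hZ
    have hlen2 : Z.length + 2 ≤ k := by omega
    rcases step2 G hδ hα E hnd hZ (fun e he => hWZ (hEW e he))
      (fun e he => le_trans (hdeg e he) (dg_mono hWZ (fun _ hz => hz))) (by omega) hlen2 with
      h | ⟨u, w, Z', hu, hw, huw, hperm, hc⟩
    · exact h
    · have hnd2 : (Z ++ [u, w]).Nodup := by
        rw [List.nodup_append]
        refine ⟨hnd, by simp [huw], ?_⟩
        intro a ha b hb hab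
        subst hab
        simp only [List.mem_cons, List.not_mem_nil, or_false] at hb
        rcases hb with hb | hb
        · subst hb
          exact hu ha
        · subst hb
          exact hw ha
      have hlen3 : Z'.length = Z.length + 2 := by
        rw [hperm.length_eq]
        simp
      exact ih Z' (by omega) (hperm.nodup_iff.2 hnd2) hc (fun x hx =>
        hperm.symm.subset (List.mem_append_left _ (hWZ hx))) (by omega) (by omega)

end Vale.Agent.Lib.P048
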